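import Vale.Agent.P354CB.Ez

/-!
The inverse of a local isometry (field inv of LK2).
-/

open scoped ContDiff
open Set Filter Topology Metric

namespace Vale.Agent.P354CB40

open Vale.Agent.P354n
open Vale.Agent.P354XJ
open Vale.Agent.P354YC (LI iso_iff)
open Vale.Agent.P354CB

variable {M N : Spc} {ψ : M.pt → N.pt} {x : M.pt} {W : Set M.pt}

/-- A local isometry read in a chart of the source. -/
theorem li_of (h : LM ψ x) {e : M.Chart} (he : On e x) :
    LI (M.g e) (M.X e) (fun y => ψ (inv e y)) (co e x) := by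
  refine ⟨ContinuousAt.comp (f := inv e) (by rw [inv_co he]; exact h.1) (inv_cont (co_mem he)),
    fun e' k => iso_iff.1 (h.2 e e' he ?_)⟩
  simpa only [inv_co he] using k

/-- A local isometry is open at x and injective near x. -/
theorem loc (hM : St M) (hN : St N) (h : LM ψ x) :
    map ψ (𝓝 x) = 𝓝 (ψ x) ∧ ∃ V ∈ 𝓝 x, InjOn ψ V := by
  obtain ⟨e, he⟩ := M.cover x
  replace he : On e x := he
  obtain ⟨a, V, b, c⟩ := (li_of h he).loc hN.lor (hM.lor e) (co_mem he)
  have m : map (inv e) (𝓝 (co e x)) = 𝓝 x := (M.toE e).symm_map_nhds_eq he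
  refine ⟨?_, {z | On e z ∧ co e z ∈ V}, (on_nhds he).and ((co_cont he).eventually b),
    fun z hz w hw k => ?_⟩
  · rw [← m, map_map]
    rw [inv_co he] at a
    exact a
  · have := c hz.2 hw.2 (by simpa only [inv_co hz.1, inv_co hw.1] using k)
    rw [← inv_co hz.1, this, inv_co hw.1]

/-- An injective local isometry on an open set is an isometric open embedding. -/
theorem emb (hM : St M) (hN : St N) (hW : IsOpen W) (h : ∀ z ∈ W, LM ψ z) (i : InjOn ψ W) :
    IsOpenEmbedding (fun p : W => ψ p) ∧ IsIsom (M := res M W hW) fun p : W => ψ p := by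
  refine ⟨.of_continuous_injective_isOpenMap (continuous_iff_continuousAt.2 fun p =>
    (h p p.2).1.comp continuous_subtype_val.continuousAt) i.injective
    (isOpenMap_iff_nhds_le.2 fun p => ?_), isIsom_iff.2 fun c e' y hy he => ?_⟩
  · rw [← (loc hM hN (h p p.2)).1, ← hW.isOpenEmbedding_subtypeVal.map_nhds_eq, map_map]
    rfl
  · have k := (h _ (inv c y).2).2 c.1 e' (pl_on.1 (inv_mem hy)) he
    rw [show co c.1 (inv c y).1 = y from co_inv hy] at k
    refine Iso.congr (e := c) k ?_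
    filter_upwards [(isOpen_tgt c).mem_nhds hy] with z hz
    rw [← pl_inv hz]

/-- A left inverse on an open set is a local isometry. -/
theorem lm_inv (hM : St M) (hN : St N) (hW : IsOpen W) (h : ∀ z ∈ W, LM ψ z)
    {φ : N.pt → M.pt} (l : ∀ z ∈ W, φ (ψ z) = z) (hx : x ∈ W) : LM φ (ψ x) := by
  have i : InjOn ψ W := fun z hz w hw k => by rw [← l z hz, k, l w hw]
  obtain ⟨o, s⟩ := emb hM hN hW h i
  have m := (loc hM hN (h x hx)).1
  refine ⟨?_, fun e' e a b => ?_⟩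
  · rw [ContinuousAt, l x hx, ← m, tendsto_map'_iff]
    exact tendsto_id.congr' (mem_of_superset (hW.mem_nhds hx) fun z hz => (l z hz).symm)
  · rw [l x hx] at b
    obtain ⟨G, hG, k⟩ := iso_symm (A := res M W hW) (pl_spacetime hM.sp) hN.sp o s
      (e := (e, ⟨x, hx⟩)) (e' := e') (a := ⟨x, hx⟩) (pl_on.2 b) a
    refine Iso.congr (e' := e) hG ?_
    have n1 : ∀ᶠ z in 𝓝 x, z ∈ W ∧ On e z ∧ On e' (ψ z) :=
      Eventually.and (hW.mem_nhds hx) ((on_nhds b).and ((h x hx).1.eventually (on_nhds a)))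
    have n2 : ψ '' {z | z ∈ W ∧ On e z ∧ On e' (ψ z)} ∈ 𝓝 (ψ x) := m ▸ image_mem_map n1
    filter_upwards [(N.toE e').image_mem_nhds a n2] with y hy
    obtain ⟨_, ⟨z, ⟨z1, z2, z3⟩, rfl⟩, rfl⟩ := hy
    show co e (φ (inv e' (co e' (ψ z)))) = G (co e' (ψ z))
    rw [inv_co z3, l z z1]
    exact (k ⟨z, z1⟩ (pl_on.2 z2) z3).symm

/-- The image of an open set by a local isometry is open. -/
theorem open_image (hM : St M) (hN : St N) (hW : IsOpen W) (h : ∀ z ∈ W, LM ψ z) :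
    IsOpen (ψ '' W) := by
  refine isOpen_iff_mem_nhds.2 ?_
  rintro _ ⟨z, hz, rfl⟩
  exact (loc hM hN (h z hz)).1 ▸ image_mem_map (hW.mem_nhds hz)

/-- The field inv of LK2. -/
theorem inv : ∀ {M N : Spc}, St M → St N → ∀ {ψ : M.pt → N.pt} {x}, (∀ᶠ z in 𝓝 x, LM ψ z) →
    ∃ (W : Set M.pt) (φ : N.pt → M.pt), IsOpen W ∧ x ∈ W ∧ IsOpen (ψ '' W) ∧
      ∀ z ∈ W, LM ψ z ∧ φ (ψ z) = z ∧ LM φ (ψ z) := by
  intro M N hM hN ψ x h
  obtain ⟨V, a, b⟩ := (loc hM hN h.self_of_nhds).2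
  obtain ⟨W, c, o, m⟩ := mem_nhds_iff.1 (inter_mem a h)
  have : Nonempty M.pt := ⟨x⟩
  have l : ∀ z ∈ W, Function.invFunOn ψ W (ψ z) = z :=
    (b.mono fun z hz => (c hz).1).leftInvOn_invFunOn
  have k : ∀ z ∈ W, LM ψ z := fun z hz => (c hz).2
  exact ⟨W, _, o, m, open_image hM hN o k, fun z hz => ⟨k z hz, l z hz, lm_inv hM hN o k l hz⟩⟩

end Vale.Agent.P354CB40
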