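import Vale.Agent.P354CB.Ez
import Vale.Agent.P354CB.Defs2

/-!
Existence and uniqueness of the maximal development from the steps.
-/

open scoped ContDiff
open Set Filter Topology Metric

namespace Vale.Agent.P354CB40

open Vale.Agent.P354n
open Vale.Agent.P354I (X Dat IsDev)
open Vale.Agent.P354J (PDy)
open Vale.Agent.P354Z (IsMGHD)
open Vale.Agent.P354CB

variable {d : Dat}

/-- A development as a development of a part of the data. -/
def ld {N : Spc} {j : X → N.pt} (h : IsDev d N j) : LD d := ⟨{0}ᶜ, N, j, dev_of h⟩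

/-- An embedding of developments is a common development. -/
theorem com_of (K : LK1) {N N' : Spc} {j : X → N.pt} {j' : X → N'.pt} (h : IsDev d N j)
    (h' : IsDev d N' j') {κ : N.pt → N'.pt} (c : Continuous κ) (i : IsIsom κ)
    (e : ∀ y ≠ 0, κ (j y) = j' y) : Com (ld h) (ld h') univ κ :=
  ⟨Hull.univ, fun x _ => K.of_isom i c x, fun y a _ => ⟨a, e y a⟩⟩

/-- A self embedding of a development is the identity. -/
theorem eq_id (K : LK1) (T : L3) (hd : PDy d) {N N' : Spc} {j : X → N.pt} {j' : X → N'.pt}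
    (h : IsDev d N j) (h' : IsDev d N' j') {κ : N.pt → N'.pt} {κ' : N'.pt → N.pt}
    (a : Com (ld h) (ld h') univ κ) (b : Com (ld h') (ld h) univ κ') (x : N.pt) :
    κ' (κ x) = x :=
  T.func d hd _ _ _ _ _ _ (T.trans d hd _ _ _ _ _ _ _ a b) (com_id K (ld h))
    ⟨⟨trivial, trivial⟩, trivial⟩

/-- **UQ.** -/
theorem uq (Z : L0) (T : L3) : UQ := by
  intro d hd N j N' j' h h'
  obtain ⟨κ, a1, a2, a3⟩ := h'.2 N j h.1
  obtain ⟨κ', b1, b2, b3⟩ := h.2 N' j' h'.1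
  have a := com_of Z.k1 h.1 h'.1 a1.continuous a2 a3
  have b := com_of Z.k1 h'.1 h.1 b1.continuous b2 b3
  exact ⟨⟨⟨κ, κ', eq_id Z.k1 T hd h.1 h'.1 a b, eq_id Z.k1 T hd h'.1 h.1 b a⟩, a1.continuous,
    b1.continuous⟩, a2, b2, a3⟩

theorem Rel.symm (T : L3) (hd : PDy d) {A B : LD d} {x x'} (h : Rel A B x x') : Rel B A x' x := by
  obtain ⟨U, ψ, c, m, rfl⟩ := h
  obtain ⟨φ, a, b⟩ := T.symm d hd A B U ψ c
  exact ⟨_, φ, a, ⟨x, m, rfl⟩, b x m⟩

theorem Rel.trans (T : L3) (hd : PDy d) {A B C : LD d} {x x' x''} (h : Rel A B x x')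
    (k : Rel B C x' x'') : Rel A C x x'' := by
  obtain ⟨U, ψ, c, m, rfl⟩ := h
  obtain ⟨V, φ, c', m', rfl⟩ := k
  exact ⟨_, _, T.trans d hd A B C U ψ V φ c c', ⟨m, m'⟩, rfl⟩

theorem Rel.self (K : LK1) (T : L3) (hd : PDy d) {A : LD d} {x x'} (h : Rel A A x x') :
    x = x' := by
  obtain ⟨U, ψ, c, m, rfl⟩ := h
  exact (T.func d hd A A _ _ _ _ c (com_id K A) ⟨m, trivial⟩).symm

/-- Every development embeds into a glued spacetime that contains all points. -/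
theorem embeds (Z : L0) (T : L3) (hd : PDy d) {ι : Type} {A : ι → LD d} {N : Spc}
    {κ : ∀ i, (A i).N.pt → N.pt} (G : Gl A N κ) (B : LD d)
    (h : ∀ p : B.N.pt, ∃ i x, Rel B (A i) p x) :
    ∃ k : B.N.pt → N.pt, IsOpenEmbedding k ∧ IsIsom k ∧
      ∀ i p x, Rel B (A i) p x → k p = κ i x := by
  choose ι0 x0 h0 using h
  have e : ∀ i p x, Rel B (A i) p x → κ (ι0 p) (x0 p) = κ i x := fun i p x k =>
    (G.eq _ _ _ _).2 (Rel.trans T hd (Rel.symm T hd (h0 p)) k)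
  have lm : ∀ p, LM (fun p => κ (ι0 p) (x0 p)) p := fun p => by
    obtain ⟨U, ψ, c, m, -⟩ := h0 p
    refine Z.k1.congr (Z.k1.comp B.h.gh.st (A (ι0 p)).h.gh.st G.st (c.lm p m)
      (Z.k1.of_isom (G.iso _) (G.emb _).continuous _)) ?_
    filter_upwards [c.hull.op.mem_nhds m] with q hq
    exact e _ q _ ⟨U, ψ, c, hq, rfl⟩
  have inj : Function.Injective fun p => κ (ι0 p) (x0 p) := fun p q k =>
    Rel.self Z.k1 T hd (Rel.trans T hd (Rel.trans T hd (h0 p) ((G.eq _ _ _ _).1 k))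
      (Rel.symm T hd (h0 q)))
  refine ⟨_, .of_continuous_injective_isOpenMap (continuous_iff_continuousAt.2 fun p => (lm p).1)
    inj (isOpenMap_iff_nhds_le.2 fun p => ?_), Z.k1.isom lm, fun i p x k => e i p x k⟩
  obtain ⟨W, φ, o, m, o', k⟩ := Z.k2.inv B.h.gh.st G.st (x := p) (Eventually.of_forall lm)
  intro V hV
  have c : Tendsto φ (𝓝 (κ (ι0 p) (x0 p))) (𝓝 p) := by
    have := (k p m).2.2.1
    rwa [ContinuousAt, (k p m).2.1] at this
  filter_upwards [o'.mem_nhds ⟨p, m, rfl⟩, c hV] with q hq hq'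
  obtain ⟨z, hz, rfl⟩ := hq
  rwa [mem_preimage, (k z hz).2.1] at hq'

/-- **MG.** -/
theorem mg (Z : L0) (T : L3) (h1 : LD1) (h2 : LD2) (hS : SAT) (g1 : GL1) (g2 : GL2) : MG := by
  intro d hd hc
  obtain ⟨A, a, b⟩ := hS d hd fun y hy => by
    obtain ⟨g, D, Xf, k1, k2, k3, k4⟩ := h1 d hd hc y hy
    exact h2 d hd y hy g D Xf k1 k2 k3 k4
  obtain ⟨N, κ, G⟩ := g1 d hd _ A
  obtain ⟨j, hj, e⟩ := g2 d hd _ A N κ G a
  refine ⟨N, j, hj, fun N' j' h' => ?_⟩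
  obtain ⟨k, k1, k2, k3⟩ := embeds Z T hd G (ld h') (b _)
  refine ⟨k, k1, k2, fun y hy => ?_⟩
  obtain ⟨i, hi⟩ := a y hy
  rw [← e i y hi]
  exact k3 i _ _ (T.base d hd (ld h') (A i) y hy hi)

end Vale.Agent.P354CB40
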